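import Vale.Agent.P032.H766.IsoFr

/-!
# P032, isolated switching direction: good clauses are closed under the symmetries

`good_im`: if a clause holds in every system `Fr T Q`, so does its image under the symmetry `h` of the
hexagon (rotations by two slots, reflections with exchange of the sides) and a permutation `f` of the
colours which fixes `5`.
-/

namespace Vale.Agent.P032.H766.Iso

/-! ### The tables are closed -/

theorem dm_lt {h j : ℕ} : dm h j < 6 := by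
  unfold dm
  split <;> exact Nat.mod_lt _ (by norm_num)

theorem nm_lt {h p : ℕ} (_hp : p < 7) : nm h p < 7 := by
  unfold nm
  split
  · norm_num
  · have := dm_lt (h := h) (j := p - 1)
    omega

theorem nm_zero {h : ℕ} : nm h 0 = 0 := by simp [nm]

theorem nm_ne {h p : ℕ} (hp : p ≠ 0) : nm h p ≠ 0 := by
  unfold nm
  rw [if_neg hp]
  omega

theorem tm_lt {h t : ℕ} (ht : t < 2) : tm h t < 2 := by
  unfold tm
  split <;> omega

theorem tm_tm {h t : ℕ} (ht : t < 2) : tm h (tm h t) = t := by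
  unfold tm
  split <;> omega

theorem dm_surj : ∀ h < 6, ∀ d < 6, ∃ d' < 6, dm h d' = d := by decide

theorem ty_par : ∀ h < 6, ∀ t < 2, ∀ j < 6, ((dm h j + tm h t) % 2 = 1 ↔ (j + t) % 2 = 1) := by
  decide

theorem in_cl : ∀ h < 6, ∀ r ∈ inRows, (nm h r.1, dm h r.2.1, nm h r.2.2) ∈ inRows := by
  decide +kernel

theorem dis_cl : ∀ h < 6, ∀ r ∈ disRows,
    (nm h r.1, dm h r.2.1, nm h r.2.2.1, dm h r.2.2.2) ∈ disRows := by
  decide +kernel

theorem av_cl : ∀ h < 6, ∀ r ∈ avRows,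
    (nm h r.1, dm h r.2.1, tm h r.2.2.1, nm h r.2.2.2.1, dm h r.2.2.2.2.1, tm h r.2.2.2.2.2) ∈
      avRows := by
  decide +kernel

theorem reg_cl : ∀ h < 6, ∀ g < 12, ∀ r ∈ regRow g,
    (nm h r.1, dm h r.2.1, tm h r.2.2) ∈ regRow (rm h g) := by
  decide +kernel

theorem reg_on : ∀ h < 6, ∀ g < 12, ∀ r ∈ regRow (rm h g), ∃ r' ∈ regRow g,
    r = (nm h r'.1, dm h r'.2.1, tm h r'.2.2) := by
  decide +kernel

theorem rm_lt : ∀ h < 6, ∀ g < 12, rm h g < 12 := by decide +kernel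

theorem rm_surj : ∀ h < 6, ∀ g < 12, ∃ g' < 12, rm h g' = g := by decide +kernel

/-! ### Masks -/

theorem foldl_testBit (f : ℕ → ℕ) (S i : ℕ) (l : List ℕ) : ∀ s : ℕ,
    ((l.foldl (fun s c => if S.testBit c then s ||| 1 <<< f c else s) s).testBit i = true ↔
      s.testBit i = true ∨ ∃ c ∈ l, S.testBit c = true ∧ f c = i) := by
  induction l with
  | nil => intro s; simp
  | cons a l ih =>
    intro s
    rw [List.foldl_cons, ih]
    by_cases ha : S.testBit a = true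
    · rw [if_pos ha, Nat.testBit_or, Bool.or_eq_true, Nat.one_shiftLeft, Nat.testBit_two_pow,
        decide_eq_true_eq]
      constructor
      · rintro ((h | h) | ⟨c, h1, h2, h3⟩)
        · exact Or.inl h
        · exact Or.inr ⟨a, by simp, ha, h⟩
        · exact Or.inr ⟨c, by simp [h1], h2, h3⟩
      · rintro (h | ⟨c, h1, h2, h3⟩)
        · exact Or.inl (Or.inl h)
        · rcases List.mem_cons.1 h1 with rfl | h1
          · exact Or.inl (Or.inr h3)
          · exact Or.inr ⟨c, h1, h2, h3⟩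
    · rw [if_neg ha]
      constructor
      · rintro (h | ⟨c, h1, h2, h3⟩)
        · exact Or.inl h
        · exact Or.inr ⟨c, by simp [h1], h2, h3⟩
      · rintro (h | ⟨c, h1, h2, h3⟩)
        · exact Or.inl h
        · rcases List.mem_cons.1 h1 with rfl | h1
          · exact absurd h2 ha
          · exact Or.inr ⟨c, h1, h2, h3⟩

theorem mm_testBit {f : ℕ → ℕ} (hi : ∀ c < 6, ∀ c' < 6, f c = f c' → c = c') (S : ℕ) {c : ℕ}
    (hc : c < 6) : (mm f S).testBit (f c) = true ↔ S.testBit c = true := by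
  unfold mm
  rw [foldl_testBit]
  constructor
  · rintro (h | ⟨c', h1, h2, h3⟩)
    · simp at h
    · rw [hi c hc c' (List.mem_range.1 h1) h3.symm]; exact h2
  · intro h
    exact Or.inr ⟨c, List.mem_range.2 hc, h, rfl⟩

/-- a permutation of the six colours is onto -/
theorem f_surj {f : ℕ → ℕ} (hf : ∀ c < 6, f c < 6) (hi : ∀ c < 6, ∀ c' < 6, f c = f c' → c = c') :
    ∀ d < 6, ∃ c < 6, f c = d := by
  intro d hd
  have hinj : Function.Injective (fun c : Fin 6 => (⟨f c.1, hf c.1 c.2⟩ : Fin 6)) := by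
    intro c c' h
    exact Fin.ext (hi c.1 c.2 c'.1 c'.2 (Fin.ext_iff.1 h))
  obtain ⟨c, hc⟩ := Finite.surjective_of_injective hinj ⟨d, hd⟩
  exact ⟨c.1, c.2, Fin.ext_iff.1 hc⟩

/-! ### The pulled back system -/

/-- the palettes seen through the symmetry -/
def pT (h : ℕ) (f : ℕ → ℕ) (T : ℕ → ℕ → Prop) : ℕ → ℕ → Prop := fun p c => T (nm h p) (f c)

/-- a state seen through the symmetry -/
def pS (h : ℕ) (f : ℕ → ℕ) (σ : St) : St := fun p j c => σ (nm h p) (dm h j) (f c)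

/-- the states seen through the symmetry -/
def pQ (h : ℕ) (f : ℕ → ℕ) (Q : ℕ → St → Prop) : ℕ → St → Prop := fun t σ' =>
  ∃ σ, Q (tm h t) σ ∧ σ' = pS h f σ

variable {T : ℕ → ℕ → Prop} {Q : ℕ → St → Prop} {h : ℕ} {f : ℕ → ℕ}

theorem Fr.pull (F : Fr T Q) (hh : h < 6) (f5 : f 5 = 5) (hf : ∀ c < 6, f c < 6)
    (hi : ∀ c < 6, ∀ c' < 6, f c = f c' → c = c') : Fr (pT h f T) (pQ h f Q) where
  z5 c hc := by
    unfold pT
    rw [nm_zero, F.z5 (f c) (hf c hc)]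
    refine not_congr ⟨fun h1 => hi c hc 5 (by norm_num) (by rw [h1, f5]), fun h1 => by rw [h1, f5]⟩
  v5 p hp hp0 := by
    unfold pT
    rw [f5]
    exact F.v5 _ (nm_lt hp) (nm_ne hp0)
  vn p hp := by
    obtain ⟨c, hc, h1⟩ := F.vn _ (nm_lt (h := h) hp)
    obtain ⟨c', hc', rfl⟩ := f_surj hf hi c hc
    exact ⟨c', hc', h1⟩
  some_ t ht := by
    obtain ⟨σ, hσ⟩ := F.some_ (tm h t) (tm_lt ht)
    exact ⟨pS h f σ, σ, hσ, rfl⟩
  ne t ht σ' hσ' p hp j _ := by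
    obtain ⟨σ, hσ, rfl⟩ := hσ'
    obtain ⟨c, hc, h1⟩ := F.ne _ (tm_lt ht) σ hσ _ (nm_lt (h := h) hp) (dm h j) dm_lt
    obtain ⟨c', hc', rfl⟩ := f_surj hf hi c hc
    exact ⟨c', hc', h1⟩
  dis r hr t ht σ' hσ' c hc h1 := by
    obtain ⟨σ, hσ, rfl⟩ := hσ'
    exact F.dis _ (dis_cl h hh r hr) _ (tm_lt ht) σ hσ (f c) (hf c hc) h1
  inn r hr t ht σ' hσ' c hc h1 := by
    obtain ⟨σ, hσ, rfl⟩ := hσ'
    exact F.inn _ (in_cl h hh r hr) _ (tm_lt ht) σ hσ (f c) (hf c hc) h1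
  two t ht σ' hσ' p hp j _ c hc h1 h2 := by
    obtain ⟨σ, hσ, rfl⟩ := hσ'
    obtain ⟨d, hd, h3, h4⟩ := F.two _ (tm_lt ht) σ hσ _ (nm_lt (h := h) hp) (dm h j) dm_lt (f c)
      (hf c hc) h1 h2
    obtain ⟨d', hd', rfl⟩ := f_surj hf hi d hd
    exact ⟨d', hd', fun h5 => h3 (by rw [h5]), h4⟩
  gap t ht σ' hσ' p hp j _ c hc := by
    obtain ⟨σ, hσ, rfl⟩ := hσ'
    obtain ⟨d, hd, h3, h4, h5⟩ := F.gap _ (tm_lt ht) σ hσ _ (nm_lt (h := h) hp) (dm h j) dm_lt (f c)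
      (hf c hc)
    obtain ⟨d', hd', rfl⟩ := f_surj hf hi d hd
    exact ⟨d', hd', fun h6 => h3 (by rw [h6]), h4, h5⟩
  ty t ht σ' hσ' j hj := by
    obtain ⟨σ, hσ, rfl⟩ := hσ'
    unfold pS
    rw [nm_zero, f5, F.ty _ (tm_lt ht) σ hσ (dm h j) dm_lt]
    exact ty_par h hh t ht j hj
  biex t ht t' ht' σ₁ σ₂ hσ₁ hσ₂ p hp j _ j' _ h1 h2 := by
    obtain ⟨σ, hσ, rfl⟩ := hσ₁
    obtain ⟨σ', hσ', rfl⟩ := hσ₂
    obtain ⟨c, hc, h3, h4⟩ := F.biex _ (tm_lt ht) _ (tm_lt ht') σ σ' hσ hσ' _ (nm_lt (h := h) hp)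
      (dm h j) dm_lt (dm h j') dm_lt
      (fun c hc h3 => by
        obtain ⟨c', hc', rfl⟩ := f_surj hf hi c hc
        exact h1 c' hc' h3)
      (fun c hc h3 => by
        obtain ⟨c', hc', rfl⟩ := f_surj hf hi c hc
        exact h2 c' hc' h3)
    obtain ⟨c', hc', rfl⟩ := f_surj hf hi c hc
    exact ⟨c', hc', h3, h4⟩
  deg p hp a ha b hb c hc d hd ab ac ad bc bd cd ta tb tc td := by
    obtain ⟨x, hx, y, hy, h1, h2, h3, h4, h5, h6⟩ := F.deg _ (nm_lt (h := h) hp) (f a) (hf a ha)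
      (f b) (hf b hb) (f c) (hf c hc) (f d) (hf d hd) (fun e => ab (hi a ha b hb e))
      (fun e => ac (hi a ha c hc e)) (fun e => ad (hi a ha d hd e)) (fun e => bc (hi b hb c hc e))
      (fun e => bd (hi b hb d hd e)) (fun e => cd (hi c hc d hd e)) ta tb tc td
    obtain ⟨x', hx', rfl⟩ := f_surj hf hi x hx
    obtain ⟨y', hy', rfl⟩ := f_surj hf hi y hy
    refine ⟨x', hx', y', hy', fun e => h1 (by rw [e]), fun e => h2 (by rw [e]),
      fun e => h3 (by rw [e]), h4, h5, ?_⟩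
    intro t ht σ' hσ' j _
    obtain ⟨σ, hσ, rfl⟩ := hσ'
    obtain ⟨k1, k2⟩ := h6 _ (tm_lt ht) σ hσ (dm h j) dm_lt
    refine ⟨fun k => k1 fun e he => ?_, fun k => k2 fun e he => ?_⟩
    · obtain ⟨e', he', rfl⟩ := f_surj hf hi e he
      have := k e' he'
      unfold pS at this
      rw [this]
      constructor
      · rintro (rfl | rfl)
        · exact Or.inl rfl
        · exact Or.inr rfl
      · rintro (e | e)
        · exact Or.inl (hi _ he' _ ha e)
        · exact Or.inr (hi _ he' _ hx' e)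
    · obtain ⟨e', he', rfl⟩ := f_surj hf hi e he
      have := k e' he'
      unfold pS at this
      rw [this]
      constructor
      · rintro (rfl | rfl)
        · exact Or.inl rfl
        · exact Or.inr rfl
      · rintro (e | e)
        · exact Or.inl (hi _ he' _ ha e)
        · exact Or.inr (hi _ he' _ hy' e)
  r7 r hr t ht t' ht' σ₁ σ₂ hσ₁ hσ₂ j _ := by
    obtain ⟨σ, hσ, rfl⟩ := hσ₁
    obtain ⟨σ', hσ', rfl⟩ := hσ₂
    obtain ⟨c, hc, h3, h4⟩ := F.r7 _ (in_cl h hh r hr) _ (tm_lt ht) _ (tm_lt ht') σ σ' hσ hσ'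
      (dm h j) dm_lt
    obtain ⟨c', hc', rfl⟩ := f_surj hf hi c hc
    exact ⟨c', hc', h3, h4⟩
  s3 a ha := by
    have hfa : f a < 5 := by
      have h1 := hf a (by omega)
      have h2 : f a ≠ 5 := fun e => by
        have := hi a (by omega) 5 (by norm_num) (by rw [e, f5])
        omega
      omega
    obtain ⟨g, hg, h1⟩ := F.s3 (f a) hfa
    obtain ⟨g', hg', rfl⟩ := rm_surj h hh g hg
    refine ⟨g', hg', fun r hr => ?_⟩
    obtain ⟨σ, hσ, h2⟩ := h1 _ (reg_cl h hh g' hg' r hr)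
    exact ⟨pS h f σ, ⟨σ, hσ, rfl⟩, h2⟩
  s12 r hr σ' hσ' := by
    obtain ⟨σ, hσ, rfl⟩ := hσ'
    obtain ⟨σ'', hσ'', h2⟩ := F.s12 _ (av_cl h hh r hr) σ hσ
    exact ⟨pS h f σ'', ⟨σ'', hσ'', rfl⟩, fun c hc h3 => h2 (f c) (hf c hc) h3⟩

/-! ### Codes -/

theorem cd_mod {k p d t S : ℕ} (hk : k < 8) : cd k p d t S % 8 = k := by unfold cd; omega

theorem cd_p {k p d t S : ℕ} (hk : k < 8) (hp : p < 16) : cd k p d t S / 8 % 16 = p := by
  unfold cd; omega

theorem cd_d {k p d t S : ℕ} (hk : k < 8) (hp : p < 16) (hd : d < 8) :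
    cd k p d t S / 128 % 8 = d := by unfold cd; omega

theorem cd_t {k p d t S : ℕ} (hk : k < 8) (hp : p < 16) (hd : d < 8) (ht : t < 2) :
    cd k p d t S / 1024 % 2 = t := by unfold cd; omega

theorem cd_S {k p d t S : ℕ} (hk : k < 8) (hp : p < 16) (hd : d < 8) (ht : t < 2) :
    cd k p d t S / 2048 = S := by unfold cd; omega

/-- the meaning of a code by its parts -/
def Pm (T : ℕ → ℕ → Prop) (Q : ℕ → St → Prop) (k p d t S : ℕ) : Prop :=
  match k with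
  | 0 => ∀ c < 6, S.testBit c = true → T p c
  | 1 => (∃ t < 2, ∃ σ, Q t σ ∧ ∃ d < 6, ∀ c < 6, σ p d c ↔ S.testBit c = true) ∧
      ∀ c < 6, S.testBit c = true → T p c
  | 2 => ∃ σ, Q t σ ∧ ∀ c < 6, S.testBit c = true → ¬ σ p d c
  | 3 => ∃ σ, Q t σ ∧ ∀ c < 6, S.testBit c = true → σ p d c
  | 4 => ∃ t < 2, ∃ σ, Q t σ ∧ ∃ d < 6, ∀ c < 6, σ p d c → S.testBit c = true
  | _ => ∀ r ∈ regRow p, ∃ σ, Q r.2.2 σ ∧ ∀ c < 6, S.testBit c = true → ¬ σ r.1 r.2.1 c

theorem P_eq (T : ℕ → ℕ → Prop) (Q : ℕ → St → Prop) (n : ℕ) :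
    P T Q n ↔ Pm T Q (n % 8) (n / 8 % 16) (n / 128 % 8) (n / 1024 % 2) (n / 2048) := Iff.rfl

theorem P_cd (T : ℕ → ℕ → Prop) (Q : ℕ → St → Prop) {k p d t S : ℕ} (hk : k < 8) (hp : p < 16)
    (hd : d < 8) (ht : t < 2) : P T Q (cd k p d t S) ↔ Pm T Q k p d t S := by
  rw [P_eq, cd_mod hk, cd_p hk hp, cd_d hk hp hd, cd_t hk hp hd ht, cd_S hk hp hd ht]

theorem P_im (hh : h < 6) (hf : ∀ c < 6, f c < 6)
    (hi : ∀ c < 6, ∀ c' < 6, f c = f c' → c = c') {n : ℕ} (hn : okc n = true) :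
    P (pT h f T) (pQ h f Q) n ↔ P T Q (im h f n) := by
  have hn' : n / 8 % 16 < (if n % 8 = 5 then 12 else 7) ∧ n / 128 % 8 < 6 ∧ n / 2048 < 64 := by
    unfold okc at hn
    simp only [Bool.and_eq_true, decide_eq_true_eq] at hn
    exact ⟨hn.1.1, hn.1.2, hn.2⟩
  rw [P_eq]
  unfold im
  have hk8 : n % 8 < 8 := Nat.mod_lt _ (by norm_num)
  have ht : n / 1024 % 2 < 2 := Nat.mod_lt _ (by norm_num)
  generalize n / 1024 % 2 = t at ht
  generalize n / 2048 = S at hn'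
  obtain ⟨hp, hd, -⟩ := hn'
  generalize n / 128 % 8 = d at hd
  generalize n / 8 % 16 = p at hp
  generalize n % 8 = k at hp hk8
  have hp12 : p < 12 := by split at hp <;> omega
  have key : ∀ c < 6, ((mm f S).testBit (f c) = true ↔ S.testBit c = true) :=
    fun c hc => mm_testBit hi S hc
  -- transport of the two kinds of statements about colours
  have all_c : ∀ A : ℕ → Prop, (∀ c < 6, S.testBit c = true → A (f c)) ↔
      ∀ c < 6, (mm f S).testBit c = true → A c := by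
    intro A
    constructor
    · intro h1 c hc h2
      obtain ⟨c', hc', rfl⟩ := f_surj hf hi c hc
      exact h1 c' hc' ((key c' hc').1 h2)
    · intro h1 c hc h2
      exact h1 (f c) (hf c hc) ((key c hc).2 h2)
  have iff_c : ∀ A : ℕ → Prop, (∀ c < 6, (A (f c) ↔ S.testBit c = true)) ↔
      ∀ c < 6, (A c ↔ (mm f S).testBit c = true) := by
    intro A
    constructor
    · intro h1 c hc
      obtain ⟨c', hc', rfl⟩ := f_surj hf hi c hc
      exact (h1 c' hc').trans (key c' hc').symm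
    · intro h1 c hc
      exact (h1 (f c) (hf c hc)).trans (key c hc)
  have imp_c : ∀ A : ℕ → Prop, (∀ c < 6, (A (f c) → S.testBit c = true)) ↔
      ∀ c < 6, (A c → (mm f S).testBit c = true) := by
    intro A
    constructor
    · intro h1 c hc h2
      obtain ⟨c', hc', rfl⟩ := f_surj hf hi c hc
      exact (key c' hc').2 (h1 c' hc' h2)
    · intro h1 c hc h2
      exact (key c hc).1 (h1 (f c) (hf c hc) h2)
  have hnm : p < 7 → nm h p < 16 := fun h7 => by have := nm_lt (h := h) h7; omega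
  have hdm : dm h d < 8 := by have := dm_lt (h := h) (j := d); omega
  match k, hk8, hp with
  | 0, _, hp =>
    simp only
    rw [P_cd T Q (by norm_num) (hnm (by simpa using hp)) (by norm_num) (by norm_num)]
    exact all_c (fun c => T (nm h p) c)
  | 1, _, hp =>
    simp only
    rw [P_cd T Q (by norm_num) (hnm (by simpa using hp)) (by norm_num) (by norm_num)]
    unfold Pm
    refine and_congr ?_ (all_c (fun c => T (nm h p) c))
    constructor
    · rintro ⟨t', ht', σ', ⟨σ, hσ, rfl⟩, d', hd', h1⟩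
      exact ⟨tm h t', tm_lt ht', σ, hσ, dm h d', dm_lt,
        (iff_c (fun c => σ (nm h p) (dm h d') c)).1 h1⟩
    · rintro ⟨t', ht', σ, hσ, d', hd', h1⟩
      obtain ⟨d'', hd'', rfl⟩ := dm_surj h hh d' hd'
      exact ⟨tm h t', tm_lt ht', pS h f σ, ⟨σ, by rw [tm_tm ht']; exact hσ, rfl⟩, d'', hd'',
        (iff_c (fun c => σ (nm h p) (dm h d'') c)).2 h1⟩
  | 2, _, hp =>
    simp only
    rw [P_cd T Q (by norm_num) (hnm (by simpa using hp)) hdm (tm_lt ht)]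
    unfold Pm
    constructor
    · rintro ⟨σ', ⟨σ, hσ, rfl⟩, h1⟩
      exact ⟨σ, hσ, (all_c (fun c => ¬ σ (nm h p) (dm h d) c)).1 h1⟩
    · rintro ⟨σ, hσ, h1⟩
      exact ⟨pS h f σ, ⟨σ, hσ, rfl⟩, (all_c (fun c => ¬ σ (nm h p) (dm h d) c)).2 h1⟩
  | 3, _, hp =>
    simp only
    rw [P_cd T Q (by norm_num) (hnm (by simpa using hp)) hdm (tm_lt ht)]
    unfold Pm
    constructor
    · rintro ⟨σ', ⟨σ, hσ, rfl⟩, h1⟩
      exact ⟨σ, hσ, (all_c (fun c => σ (nm h p) (dm h d) c)).1 h1⟩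
    · rintro ⟨σ, hσ, h1⟩
      exact ⟨pS h f σ, ⟨σ, hσ, rfl⟩, (all_c (fun c => σ (nm h p) (dm h d) c)).2 h1⟩
  | 4, _, hp =>
    simp only
    rw [P_cd T Q (by norm_num) (hnm (by simpa using hp)) (by norm_num) (by norm_num)]
    unfold Pm
    constructor
    · rintro ⟨t', ht', σ', ⟨σ, hσ, rfl⟩, d', hd', h1⟩
      exact ⟨tm h t', tm_lt ht', σ, hσ, dm h d', dm_lt,
        (imp_c (fun c => σ (nm h p) (dm h d') c)).1 h1⟩
    · rintro ⟨t', ht', σ, hσ, d', hd', h1⟩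
      obtain ⟨d'', hd'', rfl⟩ := dm_surj h hh d' hd'
      exact ⟨tm h t', tm_lt ht', pS h f σ, ⟨σ, by rw [tm_tm ht']; exact hσ, rfl⟩, d'', hd'',
        (imp_c (fun c => σ (nm h p) (dm h d'') c)).2 h1⟩
  | (k + 5), _, _ =>
    simp only
    have hrm : rm h p < 16 := by have := rm_lt h hh p hp12; omega
    rw [P_cd T Q (by norm_num) hrm (by norm_num) (by norm_num)]
    unfold Pm
    constructor
    · intro h1 r hr
      obtain ⟨r', hr', rfl⟩ := reg_on h hh p hp12 r hr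
      obtain ⟨σ', ⟨σ, hσ, rfl⟩, h2⟩ := h1 r' hr'
      exact ⟨σ, hσ, (all_c (fun c => ¬ σ (nm h r'.1) (dm h r'.2.1) c)).1 h2⟩
    · intro h1 r hr
      obtain ⟨σ, hσ, h2⟩ := h1 _ (reg_cl h hh p hp12 r hr)
      exact ⟨pS h f σ, ⟨σ, hσ, rfl⟩, (all_c (fun c => ¬ σ (nm h r.1) (dm h r.2.1) c)).2 h2⟩

theorem L_im (hh : h < 6) (hf : ∀ c < 6, f c < 6)
    (hi : ∀ c < 6, ∀ c' < 6, f c = f c' → c = c') {l : ℕ} (hl : okc (l / 2) = true) :
    L (pT h f T) (pQ h f Q) l ↔ L T Q (iml h f l) := by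
  have h1 : iml h f l % 2 = l % 2 := by unfold iml; omega
  have h2 : iml h f l / 2 = im h f (l / 2) := by unfold iml; omega
  unfold L
  rw [h1, h2]
  split
  · exact P_im hh hf hi hl
  · exact not_congr (P_im hh hf hi hl)

/-- **images of good clauses are good** -/
theorem good_im (hh : h < 6) (f5 : f 5 = 5) (hf : ∀ c < 6, f c < 6)
    (hi : ∀ c < 6, ∀ c' < 6, f c = f c' → c = c') {C : List ℕ}
    (hC : ∀ l ∈ C, okc (l / 2) = true) (hG : Good C) : Good (C.map (iml h f)) := by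
  intro T Q F
  obtain ⟨l, hl, h1⟩ := hG _ _ (F.pull hh f5 hf hi)
  exact ⟨iml h f l, List.mem_map_of_mem hl, (L_im hh hf hi (hC l hl)).1 h1⟩

end Vale.Agent.P032.H766.Iso
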