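import Vale.Agent.P032.H469.IsoImF

/-!
# P032, isolated switching direction: images of clauses, the permutation given by its digits

`imW h w l` : the image of the signed literal `l` under the symmetry `h < 6` and the colour permutation
`c ↦ w / 8 ^ c % 8`; `okw w` : these digits are a permutation of `0, .., 5` which fixes `5`.
-/

namespace Vale.Agent.P032.H766.Iso

/-- the digits as a function -/
def wf (w c : ℕ) : ℕ := w / 8 ^ c % 8

/-- image of a mask -/
def mmW (w S : ℕ) : ℕ :=
  Nat.add (Nat.shiftLeft (Nat.land S 1) (Nat.land w 7))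
    (Nat.add (Nat.shiftLeft (Nat.land (Nat.shiftRight S 1) 1) (Nat.land (Nat.shiftRight w 3) 7))
    (Nat.add (Nat.shiftLeft (Nat.land (Nat.shiftRight S 2) 1) (Nat.land (Nat.shiftRight w 6) 7))
    (Nat.add (Nat.shiftLeft (Nat.land (Nat.shiftRight S 3) 1) (Nat.land (Nat.shiftRight w 9) 7))
    (Nat.add (Nat.shiftLeft (Nat.land (Nat.shiftRight S 4) 1) (Nat.land (Nat.shiftRight w 12) 7))
    (Nat.shiftLeft (Nat.land (Nat.shiftRight S 5) 1) (Nat.land (Nat.shiftRight w 15) 7))))))

/-- image of a signed literal -/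
def imW (h w l : ℕ) : ℕ :=
  Nat.add (Nat.mod (Nat.shiftRight (TH h) (Nat.mul 12 (Nat.mod l 4096))) 4096)
    (Nat.mul 4096 (mmW w (Nat.div l 4096)))

/-- the permutations by their digits -/
def WL : List ℕ := (List.range 120).map fun i => (BP >>> (18 * i)) % 262144

/-- `w` is the list of digits of a permutation fixing `5` -/
def okw (w : ℕ) : Bool :=
  Nat.beq (mmW w 63) 63 && Nat.beq (Nat.shiftRight w 15) 5

theorem mmW_ok : ∀ i < 120, ∀ S < 64,
    mmW ((BP >>> (18 * i)) % 262144) S = mm (wf ((BP >>> (18 * i)) % 262144)) S := by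
  decide +kernel

theorem wf_five : ∀ i < 120, wf ((BP >>> (18 * i)) % 262144) 5 = 5 := by decide +kernel

theorem wf_lt : ∀ i < 120, ∀ c < 6, wf ((BP >>> (18 * i)) % 262144) c < 6 := by decide +kernel

theorem wf_inj : ∀ i < 120, ∀ c < 6, ∀ c' < 6,
    wf ((BP >>> (18 * i)) % 262144) c = wf ((BP >>> (18 * i)) % 262144) c' → c = c' := by
  decide +kernel

/-- a number with this test is in the table -/
theorem okw_mem : ∀ a < 64, ∀ b < 64, ∀ c < 8,
    (!okw (a + 64 * b + 4096 * c + 32768 * 5) ||
      (List.range 120).any (fun i => Nat.beq ((BP >>> (18 * i)) % 262144)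
        (a + 64 * b + 4096 * c + 32768 * 5))) = true := by
  decide +kernel

theorem okw_get {w : ℕ} (hw : okw w = true) : ∃ i < 120, (BP >>> (18 * i)) % 262144 = w := by
  have h5 : w / 32768 = 5 := by
    simp only [okw, Bool.and_eq_true] at hw
    have := Nat.eq_of_beq_eq_true hw.2
    have e : Nat.shiftRight w 15 = w / 32768 := Nat.shiftRight_eq_div_pow w 15
    rw [e] at this
    exact this
  have e : w % 64 + 64 * (w / 64 % 64) + 4096 * (w / 4096 % 8) + 32768 * 5 = w := by omega
  have h := okw_mem (w % 64) (by omega) (w / 64 % 64) (by omega) (w / 4096 % 8) (by omega)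
  rw [e, hw] at h
  obtain ⟨i, hi, hb⟩ := List.any_eq_true.1 h
  exact ⟨i, List.mem_range.1 hi, Nat.eq_of_beq_eq_true hb⟩

theorem imW_eq {h w l : ℕ} (hh : h < 6) (hw : okw w = true) (hl : okc (l / 2) = true) :
    imW h w l = iml h (wf w) l := by
  obtain ⟨i, hi, rfl⟩ := okw_get hw
  have hS : l / 4096 < 64 := by
    simp only [okc, Bool.and_eq_true, decide_eq_true_eq] at hl
    omega
  have e1 := TH_ok (x := l % 4096) hh (by omega)
  have e2 := mmW_ok i hi (l / 4096) hS
  have e3 := im_split h (wf ((BP >>> (18 * i)) % 262144)) (l / 2)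
  have a1 : l / 2 % 2048 = l % 4096 / 2 := by omega
  have a2 : l / 2 / 2048 = l / 4096 := by omega
  have a3 : l % 4096 % 2 = l % 2 := by omega
  rw [a1, a2] at e3
  rw [a3] at e1
  have e4 : imW h ((BP >>> (18 * i)) % 262144) l = (TH h >>> (12 * (l % 4096))) % 4096 +
      4096 * mmW ((BP >>> (18 * i)) % 262144) (l / 4096) := rfl
  rw [e4, e1, e2, iml, e3]
  omega

/-- images of clauses, the permutation given by its digits -/
theorem good_imW {h w : ℕ} (hh : h < 6) (hw : okw w = true) {C : List ℕ}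
    (hC : ∀ l ∈ C, okc (l / 2) = true) (hG : Good C) : Good (C.map (imW h w)) := by
  have e : C.map (imW h w) = C.map (iml h (wf w)) :=
    List.map_congr_left fun l hl => imW_eq hh hw (hC l hl)
  rw [e]
  obtain ⟨i, hi, rfl⟩ := okw_get hw
  exact good_im hh (wf_five i hi) (wf_lt i hi) (wf_inj i hi) hC hG

end Vale.Agent.P032.H766.Iso
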